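import Mathlib

/-!
# P318: the noise (rank one) test on codeword level

`F` a finite field, `φ : F →+ ZMod 2` a nonzero additive map, `sg` the sign of a bit.
`∑ a b, sg (φ (a ⬝ᵥ M *ᵥ b)) = |F|^(m+n) / |F|^rank M`.
-/

namespace Vale.Agent.P318.H866

open Finset Matrix

/-- The sign `(-1)^x` of a bit. -/
noncomputable def sg (x : ZMod 2) : ℝ := if x = 0 then 1 else -1

@[simp] lemma sg_zero : sg 0 = 1 := by simp [sg]

@[simp] lemma sg_one : sg 1 = -1 := by simp [sg]

lemma zmod2_cases (x : ZMod 2) : x = 0 ∨ x = 1 := by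
  revert x; decide

lemma sg_add (x y : ZMod 2) : sg (x + y) = sg x * sg y := by
  rcases zmod2_cases x with rfl | rfl <;> rcases zmod2_cases y with rfl | rfl <;>
    simp [sg, show (1 : ZMod 2) + 1 = 0 from by decide]

lemma sg_sq (x : ZMod 2) : sg x * sg x = 1 := by
  rcases zmod2_cases x with rfl | rfl <;> simp

lemma sg_eq_one_sub (x : ZMod 2) : sg x = 1 - 2 * (if x = 1 then 1 else 0 : ℝ) := by
  rcases zmod2_cases x with rfl | rfl
  · simp
  · norm_num [sg]

lemma ind_eq (x : ZMod 2) : (if x = 1 then 1 else 0 : ℝ) = (1 - sg x) / 2 := by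
  rw [sg_eq_one_sub]; ring

variable {F : Type*} [Field F] [Fintype F]

/-- Orthogonality on any finite abelian group: a nonzero additive map to `ZMod 2`
has mean zero sign. -/
lemma sum_sg_eq_zero {G : Type*} [AddCommGroup G] [Fintype G] (χ : G →+ ZMod 2)
    (h : χ ≠ 0) : ∑ g, sg (χ g) = 0 := by
  classical
  obtain ⟨g₀, hg₀⟩ : ∃ g, χ g ≠ 0 := by
    by_contra hcon
    push Not at hcon
    exact h (AddMonoidHom.ext fun g => by simpa using hcon g)
  have h1 : χ g₀ = 1 := by
    rcases zmod2_cases (χ g₀) with h0 | h1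
    · exact absurd h0 hg₀
    · exact h1
  have hs : ∑ g, sg (χ g) = ∑ g, sg (χ (g + g₀)) :=
    (Equiv.sum_comp (Equiv.addRight g₀) fun g => sg (χ g)).symm
  have : ∑ g, sg (χ g) = - ∑ g, sg (χ g) := by
    conv_lhs => rw [hs]
    rw [← Finset.sum_neg_distrib]
    refine Finset.sum_congr rfl fun g _ => ?_
    rw [map_add, sg_add, h1, sg_one]; ring
  linarith

lemma sum_sg_dot {m : Type*} [Fintype m] [DecidableEq m] (φ : F →+ ZMod 2) (hφ : φ ≠ 0)
    (w : m → F) [Decidable (w = 0)] :
    ∑ a : m → F, sg (φ (a ⬝ᵥ w)) = if w = 0 then (Fintype.card F : ℝ) ^ Fintype.card m else 0 := by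
  classical
  split_ifs with hw
  · subst hw
    simp
  · obtain ⟨i, hi⟩ : ∃ i, w i ≠ 0 := by
      by_contra hcon
      push Not at hcon
      exact hw (funext hcon)
    obtain ⟨x, hx⟩ : ∃ x, φ x ≠ 0 := by
      by_contra hcon
      push Not at hcon
      exact hφ (AddMonoidHom.ext fun g => by simpa using hcon g)
    let χ : (m → F) →+ ZMod 2 :=
      { toFun := fun a => φ (a ⬝ᵥ w)
        map_zero' := by simp
        map_add' := fun a b => by rw [add_dotProduct, map_add] }
    have : χ ≠ 0 := by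
      intro h0
      have h1 := DFunLike.congr_fun h0 (Pi.single i (x / w i))
      have h2 : χ (Pi.single i (x / w i)) = φ x := by
        change φ (Pi.single i (x / w i) ⬝ᵥ w) = φ x
        rw [single_dotProduct, div_mul_cancel₀ _ hi]
      rw [h2] at h1
      exact hx (by simpa using h1)
    exact sum_sg_eq_zero χ this

/-- The number of solutions of `M b = 0`. -/
lemma card_ker {m n : Type*} [Fintype m] [Fintype n] [DecidableEq n] [DecidableEq m]
    (M : Matrix m n F) [DecidablePred fun b : n → F => M *ᵥ b = 0] :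
    (Finset.univ.filter fun b : n → F => M *ᵥ b = 0).card * Fintype.card F ^ M.rank =
      Fintype.card F ^ Fintype.card n := by
  classical
  have h1 : Module.finrank F (LinearMap.range M.mulVecLin) +
      Module.finrank F (LinearMap.ker M.mulVecLin) = Fintype.card n := by
    rw [LinearMap.finrank_range_add_finrank_ker, Module.finrank_pi]
  have h2 : Fintype.card (LinearMap.ker M.mulVecLin) =
      Fintype.card F ^ Module.finrank F (LinearMap.ker M.mulVecLin) :=
    Module.card_eq_pow_finrank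
  have h3 : (Finset.univ.filter fun b : n → F => M *ᵥ b = 0).card =
      Fintype.card (LinearMap.ker M.mulVecLin) := by
    rw [← Fintype.card_coe]
    refine Fintype.card_congr (Equiv.subtypeEquivRight fun b => ?_)
    simp
  rw [h3, h2, Matrix.rank, ← pow_add, ← h1, add_comm]

/-- **Bias of a bilinear form.** -/
theorem sum_sg_bilin {m n : Type*} [Fintype m] [Fintype n] [DecidableEq n] [DecidableEq m]
    (φ : F →+ ZMod 2) (hφ : φ ≠ 0) (M : Matrix m n F) :
    (∑ a : m → F, ∑ b : n → F, sg (φ (a ⬝ᵥ M *ᵥ b))) * (Fintype.card F : ℝ) ^ M.rank =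
      (Fintype.card F : ℝ) ^ Fintype.card m * (Fintype.card F : ℝ) ^ Fintype.card n := by
  classical
  rw [Finset.sum_comm]
  have h1 : ∀ b : n → F, ∑ a : m → F, sg (φ (a ⬝ᵥ M *ᵥ b)) =
      if M *ᵥ b = 0 then (Fintype.card F : ℝ) ^ Fintype.card m else 0 :=
    fun b => sum_sg_dot φ hφ (M *ᵥ b)
  simp_rw [h1]
  rw [← Finset.sum_filter, Finset.sum_const, nsmul_eq_mul]
  have h2 := card_ker M
  have h3 : ((Finset.univ.filter fun b : n → F => M *ᵥ b = 0).card : ℝ) *
      (Fintype.card F : ℝ) ^ M.rank = (Fintype.card F : ℝ) ^ Fintype.card n := by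
    exact_mod_cast h2
  rw [← h3]; ring

/-- Probability form: `E_{a,b} sg φ(a^T M b) = |F|^(-rank M)`. -/
theorem avg_sg_bilin {m n : Type*} [Fintype m] [Fintype n] [DecidableEq n] [DecidableEq m]
    (φ : F →+ ZMod 2) (hφ : φ ≠ 0) (M : Matrix m n F) :
    (∑ a : m → F, ∑ b : n → F, sg (φ (a ⬝ᵥ M *ᵥ b))) /
      ((Fintype.card F : ℝ) ^ Fintype.card m * (Fintype.card F : ℝ) ^ Fintype.card n) =
      1 / (Fintype.card F : ℝ) ^ M.rank := by
  have h := sum_sg_bilin φ hφ M
  have hF : (0 : ℝ) < Fintype.card F := by exact_mod_cast Fintype.card_pos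
  have h1 : (0 : ℝ) < (Fintype.card F : ℝ) ^ M.rank := pow_pos hF _
  have h2 : (0 : ℝ) < (Fintype.card F : ℝ) ^ Fintype.card m *
      (Fintype.card F : ℝ) ^ Fintype.card n := by positivity
  rw [div_eq_div_iff h2.ne' h1.ne', one_mul, h]

omit [Fintype F] in
/-- The rank of `[[1, g], [f, H]]` is `1` iff `H = f g`, otherwise it is `2`. -/
lemma rank_two (f g H : F) [Decidable (H = f * g)] :
    (!![1, g; f, H] : Matrix (Fin 2) (Fin 2) F).rank = if H = f * g then 1 else 2 := by
  split_ifs with h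
  · subst h
    apply le_antisymm
    · have : (!![1, g; f, f * g] : Matrix (Fin 2) (Fin 2) F) = vecMulVec ![1, f] ![1, g] := by
        ext i j
        fin_cases i <;> fin_cases j <;> simp [vecMulVec_apply]
      rw [this]
      exact rank_vecMulVec_le _ _
    · rw [Nat.one_le_iff_ne_zero]
      intro h0
      have h1 : LinearMap.range (!![1, g; f, f * g] : Matrix (Fin 2) (Fin 2) F).mulVecLin = ⊥ := by
        apply Submodule.finrank_eq_zero.mp
        exact h0
      rw [LinearMap.range_eq_bot] at h1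
      have h2 := congrFun (LinearMap.congr_fun h1 ![1, 0]) 0
      simp [mulVec, dotProduct, Fin.sum_univ_two] at h2
  · have hu : IsUnit (!![1, g; f, H] : Matrix (Fin 2) (Fin 2) F) := by
      rw [Matrix.isUnit_iff_isUnit_det, Matrix.det_fin_two]
      simp only [of_apply, cons_val', cons_val_zero, cons_val_one, cons_val_fin_one, one_mul,
        isUnit_iff_ne_zero]
      intro h0
      apply h
      linear_combination h0
    rw [Matrix.rank_of_isUnit _ hu]
    simp

omit [Fintype F] in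
/-- The bilinear form of the test, written out on the four components
`(1, g, f, H)`. -/
lemma bilin_two (f g H : F) (a b : Fin 2 → F) :
    a ⬝ᵥ (!![1, g; f, H] : Matrix (Fin 2) (Fin 2) F) *ᵥ b =
      a 0 * b 0 + a 0 * b 1 * g + a 1 * b 0 * f + a 1 * b 1 * H := by
  simp [dotProduct, mulVec, Fin.sum_univ_two]
  ring

/-- **The noise test.** Fraction of `(a,b)` for which the bit
`φ (a₀b₀ + a₀b₁ g + a₁b₀ f + a₁b₁ H)` is `1`: exactly `(1-1/q)/2` if `H = f g`, and
`(1-1/q^2)/2` otherwise. -/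
theorem noise_two (φ : F →+ ZMod 2) (hφ : φ ≠ 0) (f g H : F) [Decidable (H = f * g)] :
    (∑ a : Fin 2 → F, ∑ b : Fin 2 → F,
      (if φ (a 0 * b 0 + a 0 * b 1 * g + a 1 * b 0 * f + a 1 * b 1 * H) = 1 then 1 else 0 : ℝ)) /
      ((Fintype.card F : ℝ) ^ 4) =
    if H = f * g then (1 - 1 / (Fintype.card F : ℝ)) / 2
      else (1 - 1 / (Fintype.card F : ℝ) ^ 2) / 2 := by
  classical
  have hF : (0 : ℝ) < Fintype.card F := by exact_mod_cast Fintype.card_pos
  have h := avg_sg_bilin φ hφ (!![1, g; f, H] : Matrix (Fin 2) (Fin 2) F)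
  simp_rw [bilin_two, rank_two] at h
  simp_rw [ind_eq]
  have hcard : (Fintype.card (Fin 2 → F) : ℝ) = (Fintype.card F : ℝ) ^ 2 := by simp
  have h5 : ∑ a : Fin 2 → F, ∑ b : Fin 2 → F,
      (1 - sg (φ (a 0 * b 0 + a 0 * b 1 * g + a 1 * b 0 * f + a 1 * b 1 * H))) / 2 =
      ((Fintype.card F : ℝ) ^ 4 - ∑ a : Fin 2 → F, ∑ b : Fin 2 → F,
        sg (φ (a 0 * b 0 + a 0 * b 1 * g + a 1 * b 0 * f + a 1 * b 1 * H))) / 2 := by
    simp_rw [← Finset.sum_div, Finset.sum_sub_distrib]
    congr 1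
    congr 1
    simp only [Finset.sum_const, Finset.card_univ, nsmul_eq_mul, mul_one, hcard]
    ring
  rw [h5]
  rw [Fintype.card_fin] at h
  have h6 : ((Fintype.card F : ℝ) ^ 2 * (Fintype.card F : ℝ) ^ 2) = (Fintype.card F : ℝ) ^ 4 := by
    ring
  rw [h6] at h
  rw [div_right_comm, sub_div, h, div_self (by positivity)]
  split_ifs <;> simp

/-- Counting form: the number of `(a,b)` with bit `1`, for an arbitrary matrix. -/
theorem card_bit_one {m n : Type*} [Fintype m] [Fintype n] [DecidableEq n] [DecidableEq m]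
    (φ : F →+ ZMod 2) (hφ : φ ≠ 0) (M : Matrix m n F) :
    (∑ a : m → F, ∑ b : n → F, (if φ (a ⬝ᵥ M *ᵥ b) = 1 then 1 else 0 : ℝ)) =
      (Fintype.card F : ℝ) ^ Fintype.card m * (Fintype.card F : ℝ) ^ Fintype.card n *
        (1 - 1 / (Fintype.card F : ℝ) ^ M.rank) / 2 := by
  classical
  have hF : (0 : ℝ) < Fintype.card F := by exact_mod_cast Fintype.card_pos
  have h := avg_sg_bilin φ hφ M
  have h2 : (0 : ℝ) < (Fintype.card F : ℝ) ^ Fintype.card m *
      (Fintype.card F : ℝ) ^ Fintype.card n := by positivity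
  rw [div_eq_iff h2.ne'] at h
  simp_rw [ind_eq, ← Finset.sum_div, Finset.sum_sub_distrib]
  rw [h]
  simp only [Finset.sum_const, Finset.card_univ, nsmul_eq_mul, mul_one]
  have h3 : ((Fintype.card (m → F) : ℕ) : ℝ) = (Fintype.card F : ℝ) ^ Fintype.card m := by simp
  have h4 : ((Fintype.card (n → F) : ℕ) : ℝ) = (Fintype.card F : ℝ) ^ Fintype.card n := by simp
  rw [h3, h4]
  ring

/-- The four component test, counting form. -/
theorem noise_two_count (φ : F →+ ZMod 2) (hφ : φ ≠ 0) (f g H : F) [Decidable (H = f * g)] :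
    (∑ a : Fin 2 → F, ∑ b : Fin 2 → F,
      (if φ (a 0 * b 0 + a 0 * b 1 * g + a 1 * b 0 * f + a 1 * b 1 * H) = 1 then 1 else 0 : ℝ)) =
    if H = f * g then ((Fintype.card F : ℝ) ^ 4 - (Fintype.card F : ℝ) ^ 3) / 2
      else ((Fintype.card F : ℝ) ^ 4 - (Fintype.card F : ℝ) ^ 2) / 2 := by
  have hF : (0 : ℝ) < Fintype.card F := by exact_mod_cast Fintype.card_pos
  have h := noise_two φ hφ f g H
  rw [div_eq_iff (by positivity)] at h
  rw [h]
  split_ifs
  · field_simp
  · field_simp

end Vale.Agent.P318.H866
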